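import Vale.Agent.Lib.P031.Defs

open Filter Topology

namespace Vale.Agent.Lib.P031

theorem isTotientValue_pos {v : ℕ} (h : IsTotientValue v) : 1 ≤ v := by
  obtain ⟨n, hn, rfl⟩ := h
  exact Nat.totient_pos.mpr hn

theorem isTotientValue_one : IsTotientValue 1 := ⟨1, le_rfl, by simp⟩

theorem isTotientValue_two_mul {v : ℕ} (h : IsTotientValue v) : IsTotientValue (2 * v) := by
  obtain ⟨n, hn, rfl⟩ := h
  rcases Nat.even_or_odd n with he | ho
  · refine ⟨2 * n, by omega, ?_⟩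
    exact Nat.totient_two_mul_of_even he
  · refine ⟨4 * n, by omega, ?_⟩
    have hc : Nat.Coprime 4 n := by
      have : Nat.Coprime 2 n := (Nat.coprime_two_left).mpr ho
      have h4 : (4 : ℕ) = 2 ^ 2 := by norm_num
      rw [h4]
      exact Nat.Coprime.pow_left 2 this
    rw [Nat.totient_mul hc]
    have : Nat.totient 4 = 2 := by decide
    rw [this]

theorem even_of_isTotientValue {v : ℕ} (h : IsTotientValue v) (hv : 2 ≤ v) : Even v := by
  obtain ⟨n, hn, rfl⟩ := h
  apply Nat.totient_even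
  by_contra hcon
  have : n = 1 ∨ n = 2 := by omega
  rcases this with rfl | rfl
  · simp at hv
  · simp at hv

theorem finite_setOf_le (x : ℝ) : {v : ℕ | IsTotientValue v ∧ (v : ℝ) ≤ x}.Finite := by
  apply (Set.finite_Iic ⌊x⌋₊).subset
  rintro v ⟨-, hv⟩
  exact Nat.le_floor hv

theorem V_mono : Monotone V := by
  intro a b hab
  apply Set.ncard_le_ncard _ (finite_setOf_le b)
  rintro v ⟨h1, h2⟩
  exact ⟨h1, h2.trans hab⟩

theorem one_le_V {x : ℝ} (hx : 1 ≤ x) : 1 ≤ V x := by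
  have : (0 : ℕ) < V x := by
    rw [V, Set.ncard_pos (finite_setOf_le x)]
    exact ⟨1, isTotientValue_one, by simpa using hx⟩
  exact this

theorem V_le {x : ℝ} (hx : 0 ≤ x) : (V x : ℝ) ≤ x := by
  have h1 : V x ≤ (Set.Icc 1 ⌊x⌋₊ : Set ℕ).ncard := by
    apply Set.ncard_le_ncard _ (Set.finite_Icc _ _)
    rintro v ⟨h1, h2⟩
    exact ⟨isTotientValue_pos h1, Nat.le_floor h2⟩
  have h2 : (Set.Icc 1 ⌊x⌋₊ : Set ℕ).ncard = ⌊x⌋₊ := by
    rw [← Finset.coe_Icc, Set.ncard_coe_finset]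
    simp
  rw [h2] at h1
  calc (V x : ℝ) ≤ (⌊x⌋₊ : ℝ) := by exact_mod_cast h1
    _ ≤ x := Nat.floor_le hx

theorem primeCounting_le_V (n : ℕ) : Nat.primeCounting (n + 1) ≤ V n := by
  classical
  have h0 : Nat.primeCounting (n + 1) = ((Finset.range (n + 2)).filter Nat.Prime).card := by
    rw [Nat.primeCounting, Nat.primeCounting', Nat.count_eq_card_filter_range]
  rw [h0, V]
  have hinj : Set.InjOn (fun p : ℕ => p - 1) (((Finset.range (n + 2)).filter Nat.Prime : Finset ℕ) : Set ℕ) := by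
    intro p hp q hq hpq
    simp only [Finset.coe_filter, Finset.mem_range, Set.mem_ofPred_eq] at hp hq
    have := hp.2.one_lt
    have := hq.2.one_lt
    simp only at hpq
    omega
  rw [← Set.ncard_coe_finset, ← Set.ncard_image_of_injOn hinj]
  apply Set.ncard_le_ncard _ (finite_setOf_le _)
  rintro v ⟨p, hp, rfl⟩
  simp only [Finset.coe_filter, Finset.mem_range, Set.mem_ofPred_eq] at hp
  refine ⟨⟨p, hp.2.one_lt.le, Nat.totient_prime hp.2⟩, ?_⟩
  have : p - 1 ≤ n := by omega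
  exact_mod_cast this

end Vale.Agent.Lib.P031
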