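import Mathlib

/-!
Values of Euler's function: definitions for the Erdos-Hall ratio question.
-/

open Filter Topology

namespace Vale.Agent.Lib.P031

/-- `v` is a value of Euler's function: `v = φ(n)` for some `n ≥ 1`. -/
def IsTotientValue (v : ℕ) : Prop := ∃ n : ℕ, 1 ≤ n ∧ Nat.totient n = v

/-- `V x` is the number of distinct values of Euler's function that are at most `x`. -/
noncomputable def V (x : ℝ) : ℕ := {v : ℕ | IsTotientValue v ∧ (v : ℝ) ≤ x}.ncard

/-- `Nn x` is the number of integers `n` with `x / 2 < n ≤ x` that are not values of Euler's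
function although `2 n` is one. -/
noncomputable def Nn (x : ℝ) : ℕ :=
  {n : ℕ | x / 2 < (n : ℝ) ∧ (n : ℝ) ≤ x ∧ ¬ IsTotientValue n ∧ IsTotientValue (2 * n)}.ncard

/-- The Erdos-Hall statement for the ratio `c`: `V (c x) / V x → c`. -/
def ErdosHall (c : ℝ) : Prop :=
  Tendsto (fun x : ℝ => (V (c * x) : ℝ) / (V x : ℝ)) atTop (𝓝 c)

end Vale.Agent.Lib.P031
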