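import Vale.Agent.Lib.P031.Basic

open Filter Topology

namespace Vale.Agent.Lib.P031

/-- `V (c x) ≥ L V x` eventually with `L > c` contradicts `V y ≤ y`. -/
theorem not_eventually_ratio_ge {c L : ℝ} (hc : 1 < c) (hL : c < L) :
    ¬ ∀ᶠ x in atTop, L * (V x : ℝ) ≤ (V (c * x) : ℝ) := by
  intro h
  obtain ⟨x₁, hx₁⟩ := eventually_atTop.1 h
  set x₀ := max x₁ 1 with hx₀
  have hx₀1 : 1 ≤ x₀ := le_max_right _ _
  have hc0 : 0 < c := by linarith
  have hL0 : 0 < L := by linarith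
  have hge : ∀ k : ℕ, x₀ ≤ c ^ k * x₀ := fun k => by
    have : 1 ≤ c ^ k := one_le_pow₀ hc.le
    nlinarith
  have key : ∀ k : ℕ, L ^ k * (V x₀ : ℝ) ≤ (V (c ^ k * x₀) : ℝ) := by
    intro k
    induction k with
    | zero => simp
    | succ k ih =>
      have h1 := hx₁ (c ^ k * x₀) ((le_max_left _ _).trans (hge k))
      calc L ^ (k+1) * (V x₀ : ℝ) = L * (L ^ k * (V x₀ : ℝ)) := by ring
        _ ≤ L * (V (c ^ k * x₀) : ℝ) := by gcongr
        _ ≤ (V (c * (c ^ k * x₀)) : ℝ) := h1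
        _ = (V (c ^ (k+1) * x₀) : ℝ) := by congr 2; ring
  have hV1 : (1:ℝ) ≤ (V x₀ : ℝ) := by exact_mod_cast one_le_V hx₀1
  have hbound : ∀ k : ℕ, (L / c) ^ k ≤ x₀ := by
    intro k
    have h2 : (V (c ^ k * x₀) : ℝ) ≤ c ^ k * x₀ := V_le (by positivity)
    have h3 : L ^ k ≤ c ^ k * x₀ := by
      calc L ^ k = L ^ k * 1 := by ring
        _ ≤ L ^ k * (V x₀ : ℝ) := by gcongr
        _ ≤ _ := (key k).trans h2
    rw [div_pow, div_le_iff₀ (by positivity)]
    linarith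
  have hlt : 1 < L / c := by rw [one_lt_div hc0]; exact hL
  obtain ⟨k, hk⟩ :=
    ((tendsto_pow_atTop_atTop_of_one_lt hlt).eventually (eventually_gt_atTop x₀)).exists
  exact absurd (hbound k) (not_le.2 hk)

/-- Chebyshev's lower bound transferred to `V`. -/
theorem chebyshev_V {y : ℝ} (hy : 1 < y) :
    (y - 1) * Real.log 2 - Real.log (y + 2) ≤ (V y : ℝ) * Real.log y := by
  have h1 := Chebyshev.pi_ge' hy
  rw [div_le_iff₀ (Real.log_pos hy)] at h1
  have h2 : Nat.primeCounting ⌊y⌋₊ ≤ V y := by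
    calc Nat.primeCounting ⌊y⌋₊ ≤ Nat.primeCounting (⌊y⌋₊ + 1) :=
          Nat.monotone_primeCounting (Nat.le_succ _)
      _ ≤ V (⌊y⌋₊ : ℝ) := primeCounting_le_V _
      _ ≤ V y := V_mono (Nat.floor_le (by linarith))
  have h3 : (Nat.primeCounting ⌊y⌋₊ : ℝ) ≤ (V y : ℝ) := by exact_mod_cast h2
  have h4 : 0 < Real.log y := Real.log_pos hy
  calc _ ≤ (Nat.primeCounting ⌊y⌋₊ : ℝ) * Real.log y := h1
    _ ≤ _ := by gcongr

/-- `V (c x) ≤ L V x` eventually with `L < c` contradicts `V y ≥ π(y)` and Chebyshev's lower bound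
`Chebyshev.pi_ge`. -/
theorem not_eventually_ratio_le {c L : ℝ} (hc : 1 < c) (hL : L < c) :
    ¬ ∀ᶠ x in atTop, (V (c * x) : ℝ) ≤ L * (V x : ℝ) := by
  intro h
  obtain ⟨x₁, hx₁⟩ := eventually_atTop.1 h
  set x₀ := max x₁ 2 with hx₀
  have hx₀2 : 2 ≤ x₀ := le_max_right _ _
  have hx₀1 : 1 ≤ x₀ := by linarith
  have hc0 : 0 < c := by linarith
  have hge : ∀ k : ℕ, x₀ ≤ c ^ k * x₀ := fun k => by
    have : 1 ≤ c ^ k := one_le_pow₀ hc.le
    nlinarith
  have hV1 : (1:ℝ) ≤ (V x₀ : ℝ) := by exact_mod_cast one_le_V hx₀1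
  have hL0 : 0 < L := by
    have h1 := hx₁ x₀ (le_max_left _ _)
    have h2 : (1:ℝ) ≤ (V (c * x₀) : ℝ) := by
      exact_mod_cast one_le_V (by nlinarith : (1:ℝ) ≤ c * x₀)
    by_contra hneg
    have hneg' : L ≤ 0 := not_lt.1 hneg
    nlinarith
  have key : ∀ k : ℕ, (V (c ^ k * x₀) : ℝ) ≤ L ^ k * (V x₀ : ℝ) := by
    intro k
    induction k with
    | zero => simp
    | succ k ih =>
      have h1 := hx₁ (c ^ k * x₀) ((le_max_left _ _).trans (hge k))
      calc (V (c ^ (k+1) * x₀) : ℝ) = (V (c * (c ^ k * x₀)) : ℝ) := by congr 2; ring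
        _ ≤ L * (V (c ^ k * x₀) : ℝ) := h1
        _ ≤ L * (L ^ k * (V x₀ : ℝ)) := by gcongr
        _ = L ^ (k+1) * (V x₀ : ℝ) := by ring
  set V₀ : ℝ := (V x₀ : ℝ) with hV₀
  set a : ℝ := Real.log c with ha
  set b : ℝ := Real.log x₀ with hb
  have ha0 : 0 < a := Real.log_pos hc
  have hb0 : 0 < b := Real.log_pos (by linarith)
  have hmain : ∀ k : ℕ, x₀ * Real.log 2 ≤
      Real.log 6 * (1 / c) ^ k + a * ((k : ℝ) * (1 / c) ^ k) + b * (1 / c) ^ k
        + V₀ * a * ((k : ℝ) * (L / c) ^ k) + V₀ * b * (L / c) ^ k := by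
    intro k
    have hy : 1 < c ^ k * x₀ := by linarith [hge k]
    have hck : 0 < c ^ k := by positivity
    have h1 := chebyshev_V hy
    have hlog : Real.log (c ^ k * x₀) = (k : ℝ) * a + b := by
      rw [Real.log_mul (by positivity) (by positivity), Real.log_pow]
    have hlog2 : Real.log (c ^ k * x₀ + 2) ≤ Real.log 3 + ((k : ℝ) * a + b) := by
      rw [← hlog, ← Real.log_mul (by norm_num) (by positivity)]
      apply Real.log_le_log (by positivity)
      linarith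
    have hlog6 : Real.log 6 = Real.log 2 + Real.log 3 := by
      rw [← Real.log_mul (by norm_num) (by norm_num)]; norm_num
    have hpos : 0 ≤ (k : ℝ) * a + b := by positivity
    have h2 : (V (c ^ k * x₀) : ℝ) * Real.log (c ^ k * x₀) ≤
        L ^ k * V₀ * ((k : ℝ) * a + b) := by
      rw [hlog]
      exact mul_le_mul_of_nonneg_right (key k) hpos
    have h3 : c ^ k * (x₀ * Real.log 2) ≤
        Real.log 6 + ((k : ℝ) * a + b) + L ^ k * V₀ * ((k : ℝ) * a + b) := by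
      nlinarith
    have h4 : x₀ * Real.log 2 ≤
        (Real.log 6 + ((k : ℝ) * a + b) + L ^ k * V₀ * ((k : ℝ) * a + b)) / c ^ k := by
      rw [le_div_iff₀ hck]; linarith
    refine h4.trans (le_of_eq ?_)
    rw [div_pow, div_pow, one_pow]
    field_simp
    ring
  have hr1 : (0:ℝ) ≤ 1 / c := by positivity
  have hr1' : 1 / c < 1 := by rw [div_lt_one hc0]; exact hc
  have hr2 : (0:ℝ) ≤ L / c := by positivity
  have hr2' : L / c < 1 := by rw [div_lt_one hc0]; exact hL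
  have t1 := tendsto_pow_atTop_nhds_zero_of_lt_one hr1 hr1'
  have t2 := tendsto_self_mul_const_pow_of_lt_one hr1 hr1'
  have t3 := tendsto_pow_atTop_nhds_zero_of_lt_one hr2 hr2'
  have t4 := tendsto_self_mul_const_pow_of_lt_one hr2 hr2'
  have tall : Tendsto (fun k : ℕ => Real.log 6 * (1 / c) ^ k + a * ((k : ℝ) * (1 / c) ^ k)
        + b * (1 / c) ^ k + V₀ * a * ((k : ℝ) * (L / c) ^ k) + V₀ * b * (L / c) ^ k)
      atTop (𝓝 (Real.log 6 * 0 + a * 0 + b * 0 + V₀ * a * 0 + V₀ * b * 0)) :=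
    ((((t1.const_mul _).add (t2.const_mul _)).add (t1.const_mul _)).add
      (t4.const_mul _)).add (t3.const_mul _)
  have hle := ge_of_tendsto' tall hmain
  have : 0 < x₀ * Real.log 2 := mul_pos (by linarith) (Real.log_pos (by norm_num))
  simp at hle
  linarith

end Vale.Agent.Lib.P031
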