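import Vale.Agent.Lib.P031.Basic

open Filter Topology

namespace Vale.Agent.Lib.P031

/-- Number of values in a half open interval. -/
theorem ncard_Ioc {a b : ℝ} (hab : a ≤ b) :
    {v : ℕ | IsTotientValue v ∧ a < (v : ℝ) ∧ (v : ℝ) ≤ b}.ncard + V a = V b := by
  have hfin : {v : ℕ | IsTotientValue v ∧ a < (v : ℝ) ∧ (v : ℝ) ≤ b}.Finite := by
    apply (finite_setOf_le b).subset
    rintro v ⟨h1, -, h3⟩
    exact ⟨h1, h3⟩
  have hdisj : Disjoint {v : ℕ | IsTotientValue v ∧ a < (v : ℝ) ∧ (v : ℝ) ≤ b}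
      {v : ℕ | IsTotientValue v ∧ (v : ℝ) ≤ a} := by
    rw [Set.disjoint_left]
    rintro v ⟨-, h2, -⟩ ⟨-, h4⟩
    linarith
  have hun : {v : ℕ | IsTotientValue v ∧ a < (v : ℝ) ∧ (v : ℝ) ≤ b} ∪
      {v : ℕ | IsTotientValue v ∧ (v : ℝ) ≤ a} = {v : ℕ | IsTotientValue v ∧ (v : ℝ) ≤ b} := by
    ext v
    constructor
    · rintro (⟨h1, -, h3⟩ | ⟨h1, h2⟩)
      · exact ⟨h1, h3⟩
      · exact ⟨h1, h2.trans hab⟩
    · rintro ⟨h1, h2⟩
      rcases lt_or_ge a (v : ℝ) with h | h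
      · exact Or.inl ⟨h1, h, h2⟩
      · exact Or.inr ⟨h1, h⟩
  unfold V
  rw [← hun, Set.ncard_union_eq hdisj hfin (finite_setOf_le a)]

/-- Second difference identity: every value in `(x, 2x]` is `2 n` with `x / 2 < n ≤ x`, and `n` is
either a value itself or is counted by `Nn x`. -/
theorem second_difference {x : ℝ} (hx : 1 ≤ x) :
    V (2 * x) + V (x / 2) = 2 * V x + Nn x := by
  have hA := ncard_Ioc (a := x) (b := 2 * x) (by linarith)
  have hB := ncard_Ioc (a := x / 2) (b := x) (by linarith)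
  set A : Set ℕ := {v : ℕ | IsTotientValue v ∧ x < (v : ℝ) ∧ (v : ℝ) ≤ 2 * x} with hAdef
  set B : Set ℕ := {v : ℕ | IsTotientValue v ∧ x / 2 < (v : ℝ) ∧ (v : ℝ) ≤ x} with hBdef
  set C : Set ℕ := {n : ℕ | x / 2 < (n : ℝ) ∧ (n : ℝ) ≤ x ∧ ¬ IsTotientValue n ∧
    IsTotientValue (2 * n)} with hCdef
  have hBfin : B.Finite := by
    apply (Set.finite_Iic ⌊x⌋₊).subset
    rintro v ⟨-, -, h3⟩
    exact Nat.le_floor h3
  have hCfin : C.Finite := by
    apply (Set.finite_Iic ⌊x⌋₊).subset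
    rintro v ⟨-, h3, -⟩
    exact Nat.le_floor h3
  have hdisj : Disjoint B C := by
    rw [Set.disjoint_left]
    rintro v ⟨h1, -, -⟩ ⟨-, -, h4, -⟩
    exact h4 h1
  have himg : A = (fun n : ℕ => 2 * n) '' (B ∪ C) := by
    ext v
    constructor
    · rintro ⟨h1, h2, h3⟩
      have hv2 : 2 ≤ v := by
        have : (1 : ℝ) < (v : ℝ) := lt_of_le_of_lt hx h2
        have : 1 < v := by exact_mod_cast this
        omega
      obtain ⟨n, hn⟩ := even_of_isTotientValue h1 hv2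
      have hv : v = 2 * n := by omega
      refine ⟨n, ?_, hv.symm⟩
      have hvr : (v : ℝ) = 2 * (n : ℝ) := by rw [hv]; push_cast; ring
      have g1 : x / 2 < (n : ℝ) := by linarith
      have g2 : (n : ℝ) ≤ x := by linarith
      by_cases hT : IsTotientValue n
      · exact Or.inl ⟨hT, g1, g2⟩
      · exact Or.inr ⟨g1, g2, hT, hv ▸ h1⟩
    · rintro ⟨n, hn, rfl⟩
      have hc : ((2 * n : ℕ) : ℝ) = 2 * (n : ℝ) := by push_cast; ring
      rcases hn with ⟨h1, h2, h3⟩ | ⟨h2, h3, -, h5⟩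
      · exact ⟨isTotientValue_two_mul h1, by rw [hc]; linarith, by rw [hc]; linarith⟩
      · exact ⟨h5, by rw [hc]; linarith, by rw [hc]; linarith⟩
  have hinj : Set.InjOn (fun n : ℕ => 2 * n) (B ∪ C) := by
    intro a _ b _ hab
    simp only at hab
    omega
  have hcard : A.ncard = B.ncard + C.ncard := by
    rw [himg, Set.InjOn.ncard_image hinj, Set.ncard_union_eq hdisj hBfin hCfin]
  have hN : Nn x = C.ncard := rfl
  omega

end Vale.Agent.Lib.P031
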