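import Mathlib

open Filter Topology

namespace Vale.Agent.Lib.P031

theorem decay_aux (p : ℝ → ℝ) (Y B δ : ℝ) (hY : 0 < Y) (hδ : 0 ≤ δ)
    (hB : ∀ x, Y ≤ x → p x ≤ B)
    (hstep : ∀ x, 2 * Y ≤ x → p x ≤ δ + p (x / 2) / 2) (k : ℕ) :
    ∀ x, 2 ^ k * Y ≤ x → p x ≤ 2 * δ + B / 2 ^ k := by
  induction k with
  | zero =>
    intro x hx
    have := hB x (by simpa using hx)
    simp only [pow_zero, div_one]
    linarith
  | succ k ih =>
    intro x hx
    have h2k : (1 : ℝ) ≤ 2 ^ k := one_le_pow₀ (by norm_num)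
    have hx2 : 2 ^ k * Y ≤ x / 2 := by
      rw [pow_succ] at hx
      linarith
    have hx1 : 2 * Y ≤ x := by
      have : Y ≤ 2 ^ k * Y := by nlinarith
      linarith
    have h1 := hstep x hx1
    have h2 := ih (x / 2) hx2
    have h3 : B / 2 ^ (k + 1) = B / 2 ^ k / 2 := by
      rw [pow_succ]
      field_simp
    rw [h3]
    linarith

theorem decay_eventually (p : ℝ → ℝ) (Y B δ : ℝ) (hY : 0 < Y) (hδ : 0 ≤ δ)
    (hB : ∀ x, Y ≤ x → p x ≤ B)
    (hstep : ∀ x, 2 * Y ≤ x → p x ≤ δ + p (x / 2) / 2) {ε : ℝ} (hε : 0 < ε) :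
    ∀ᶠ x in atTop, p x ≤ 2 * δ + ε := by
  obtain ⟨k, hk⟩ : ∃ k : ℕ, B / 2 ^ k < ε := by
    have h0 : Tendsto (fun k : ℕ => B / 2 ^ k) atTop (𝓝 0) := by
      have h := (tendsto_pow_atTop_nhds_zero_of_lt_one (r := (1 / 2 : ℝ)) (by norm_num)
        (by norm_num)).const_mul B
      simp only [mul_zero] at h
      refine h.congr (fun k => ?_)
      rw [one_div, inv_pow, div_eq_mul_inv]
    exact (h0.eventually (Iio_mem_nhds hε)).exists
  filter_upwards [eventually_ge_atTop (2 ^ k * Y)] with x hx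
  have := decay_aux p Y B δ hY hδ hB hstep k x hx
  linarith

theorem rec_identity (r ν : ℝ → ℝ) (X0 : ℝ) (hr1 : ∀ x, X0 ≤ x → 1 ≤ r x)
    (hrec : ∀ x, 2 * X0 ≤ x → r x = 2 + ν x - 1 / r (x / 2)) :
    ∀ x, 2 * X0 ≤ x → r x - 2 = (ν x - 1 / 2) + (r (x / 2) - 2) / (2 * r (x / 2)) := by
  intro x hx
  have h1 : 1 ≤ r (x / 2) := hr1 _ (by linarith)
  have hne : r (x / 2) ≠ 0 := (by linarith : 0 < r (x / 2)).ne'
  rw [hrec x hx]
  field_simp
  ring

/-- With `e = r - 2`: `e x = (ν x - 1/2) + e (x/2) / (2 r (x/2))`, `|e x| ≤ |ν x - 1/2| + |e (x/2)| / 2`. -/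
theorem tendsto_two_of_rec (r ν : ℝ → ℝ) (X0 : ℝ) (hX0 : 0 < X0) (hr1 : ∀ x, X0 ≤ x → 1 ≤ r x)
    (hrec : ∀ x, 2 * X0 ≤ x → r x = 2 + ν x - 1 / r (x / 2))
    (hν : Tendsto ν atTop (𝓝 (1 / 2))) : Tendsto r atTop (𝓝 2) := by
  have hid := rec_identity r ν X0 hr1 hrec
  have habs : ∀ x, 2 * X0 ≤ x → |r x - 2| ≤ |ν x - 1 / 2| + |r (x / 2) - 2| / 2 := by
    intro x hx
    have h1 : 1 ≤ r (x / 2) := hr1 _ (by linarith)
    rw [hid x hx]
    refine (abs_add_le _ _).trans ?_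
    have h2 : |(r (x / 2) - 2) / (2 * r (x / 2))| ≤ |r (x / 2) - 2| / 2 := by
      rw [abs_div]
      apply div_le_div_of_nonneg_left (abs_nonneg _) (by norm_num)
      rw [abs_of_pos (by linarith)]
      linarith
    linarith
  rw [Metric.tendsto_nhds]
  intro ε hε
  have hmin : 0 < min (ε / 4) 1 := lt_min (by linarith) one_pos
  obtain ⟨N, hN⟩ := eventually_atTop.mp ((Metric.tendsto_nhds.mp hν) _ hmin)
  have hN1 : ∀ x, N ≤ x → |ν x - 1 / 2| < ε / 4 := fun x hx =>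
    lt_of_lt_of_le (by simpa [Real.dist_eq] using hN x hx) (min_le_left _ _)
  have hN2 : ∀ x, N ≤ x → |ν x - 1 / 2| < 1 := fun x hx =>
    lt_of_lt_of_le (by simpa [Real.dist_eq] using hN x hx) (min_le_right _ _)
  have hY : 0 < max (2 * X0) N := lt_max_of_lt_left (by linarith)
  have hB : ∀ x, max (2 * X0) N ≤ x → |r x - 2| ≤ 5 / 2 := by
    intro x hx
    have hx0 : 2 * X0 ≤ x := le_trans (le_max_left _ _) hx
    have hxN : N ≤ x := le_trans (le_max_right _ _) hx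
    have h1 : 1 ≤ r (x / 2) := hr1 _ (by linarith)
    have h2 : 0 < 1 / r (x / 2) := by positivity
    have h3 : 1 / r (x / 2) ≤ 1 := by
      rw [div_le_one (by linarith)]
      exact h1
    have h4 := abs_lt.mp (hN2 x hxN)
    rw [hrec x hx0, abs_le]
    constructor <;> linarith [h4.1, h4.2]
  have hstep : ∀ x, 2 * max (2 * X0) N ≤ x → |r x - 2| ≤ ε / 4 + |r (x / 2) - 2| / 2 := by
    intro x hx
    have hx' : max (2 * X0) N ≤ x := by linarith
    have hx0 : 2 * X0 ≤ x := le_trans (le_max_left _ _) hx'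
    have hxN : N ≤ x := le_trans (le_max_right _ _) hx'
    have := habs x hx0
    have := hN1 x hxN
    linarith
  have hfin := decay_eventually (fun x => |r x - 2|) _ (5 / 2) (ε / 4) hY (by linarith) hB hstep
    (ε := ε / 4) (by linarith)
  filter_upwards [hfin] with x hx
  rw [Real.dist_eq]
  linarith

theorem tendsto_half_of_rec (r ν : ℝ → ℝ) (X0 : ℝ)
    (hrec : ∀ x, 2 * X0 ≤ x → r x = 2 + ν x - 1 / r (x / 2))
    (hr : Tendsto r atTop (𝓝 2)) : Tendsto ν atTop (𝓝 (1 / 2)) := by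
  have hhalf : Tendsto (fun x : ℝ => x / 2) atTop atTop :=
    tendsto_id.atTop_div_const (by norm_num)
  have h2 : Tendsto (fun x => r (x / 2)) atTop (𝓝 2) := hr.comp hhalf
  have h3 : Tendsto (fun x => r x - 2 + 1 / r (x / 2)) atTop (𝓝 (2 - 2 + 1 / 2)) :=
    (hr.sub_const 2).add (tendsto_const_nhds.div h2 (by norm_num))
  have h4 : (2 - 2 + 1 / 2 : ℝ) = 1 / 2 := by norm_num
  rw [h4] at h3
  refine h3.congr' ?_
  filter_upwards [eventually_ge_atTop (2 * X0)] with x hx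
  rw [hrec x hx]
  ring

/-- If `ν ≤ 1/2 - η` eventually then `r ≤ 2 - η/2` eventually:
`e x ≤ -η + max (e (x/2)) 0 / 4` and `e ≤ 1/2`. -/
theorem eventually_le_of_rec (r ν : ℝ → ℝ) (X0 : ℝ) (hX0 : 0 < X0) (hr1 : ∀ x, X0 ≤ x → 1 ≤ r x)
    (hrec : ∀ x, 2 * X0 ≤ x → r x = 2 + ν x - 1 / r (x / 2)) {η : ℝ} (hη : 0 < η)
    (hν : ∀ᶠ x in atTop, ν x ≤ 1 / 2 - η) : ∀ᶠ x in atTop, r x ≤ 2 - η / 2 := by
  have hid := rec_identity r ν X0 hr1 hrec
  obtain ⟨N, hN⟩ := eventually_atTop.mp hν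
  have hY : 0 < max (2 * X0) N := lt_max_of_lt_left (by linarith)
  have hkey : ∀ x, max (2 * X0) N ≤ x → r x - 2 ≤ -η + max (r (x / 2) - 2) 0 / 4 := by
    intro x hx
    have hx0 : 2 * X0 ≤ x := le_trans (le_max_left _ _) hx
    have hxN : N ≤ x := le_trans (le_max_right _ _) hx
    have h1 : 1 ≤ r (x / 2) := hr1 _ (by linarith)
    have h2 : (r (x / 2) - 2) / (2 * r (x / 2)) ≤ max (r (x / 2) - 2) 0 / 4 := by
      rcases le_total 2 (r (x / 2)) with h | h
      · rw [max_eq_left (by linarith)]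
        apply div_le_div_of_nonneg_left (by linarith) (by norm_num) (by linarith)
      · rw [max_eq_right (by linarith)]
        simp only [zero_div]
        apply div_nonpos_of_nonpos_of_nonneg (by linarith) (by linarith)
    have := hN x hxN
    rw [hid x hx0]
    linarith
  have hB : ∀ x, max (2 * X0) N ≤ x → max (r x - 2) 0 ≤ 1 / 2 := by
    intro x hx
    have hx0 : 2 * X0 ≤ x := le_trans (le_max_left _ _) hx
    have hxN : N ≤ x := le_trans (le_max_right _ _) hx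
    have h1 : 1 ≤ r (x / 2) := hr1 _ (by linarith)
    have h2 : 0 < 1 / r (x / 2) := by positivity
    have := hN x hxN
    apply max_le _ (by norm_num)
    rw [hrec x hx0]
    linarith
  have hstep : ∀ x, 2 * max (2 * X0) N ≤ x →
      max (r x - 2) 0 ≤ 0 + max (r (x / 2) - 2) 0 / 2 := by
    intro x hx
    have hx' : max (2 * X0) N ≤ x := by linarith
    have h0 : 0 ≤ max (r (x / 2) - 2) 0 := le_max_right _ _
    have := hkey x hx'
    apply max_le <;> linarith
  have hfin := decay_eventually (fun x => max (r x - 2) 0) _ (1 / 2) 0 hY le_rfl hB hstep hη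
  have hhalf : Tendsto (fun x : ℝ => x / 2) atTop atTop :=
    tendsto_id.atTop_div_const (by norm_num)
  filter_upwards [hhalf.eventually hfin, eventually_ge_atTop (max (2 * X0) N)] with x hx hx2
  have := hkey x hx2
  linarith

/-- If `ν ≥ 1/2 + η` eventually then `r ≥ 2 + η/2` eventually:
`e x ≥ η - max (-(e (x/2))) 0 / 2` and `e ≥ -1`. -/
theorem eventually_ge_of_rec (r ν : ℝ → ℝ) (X0 : ℝ) (hX0 : 0 < X0) (hr1 : ∀ x, X0 ≤ x → 1 ≤ r x)
    (hrec : ∀ x, 2 * X0 ≤ x → r x = 2 + ν x - 1 / r (x / 2)) {η : ℝ} (hη : 0 < η)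
    (hν : ∀ᶠ x in atTop, 1 / 2 + η ≤ ν x) : ∀ᶠ x in atTop, 2 + η / 2 ≤ r x := by
  have hid := rec_identity r ν X0 hr1 hrec
  obtain ⟨N, hN⟩ := eventually_atTop.mp hν
  have hY : 0 < max (2 * X0) N := lt_max_of_lt_left (by linarith)
  have hkey : ∀ x, max (2 * X0) N ≤ x → η - max (2 - r (x / 2)) 0 / 2 ≤ r x - 2 := by
    intro x hx
    have hx0 : 2 * X0 ≤ x := le_trans (le_max_left _ _) hx
    have hxN : N ≤ x := le_trans (le_max_right _ _) hx
    have h1 : 1 ≤ r (x / 2) := hr1 _ (by linarith)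
    have h2 : -(max (2 - r (x / 2)) 0 / 2) ≤ (r (x / 2) - 2) / (2 * r (x / 2)) := by
      rcases le_total 2 (r (x / 2)) with h | h
      · rw [max_eq_right (by linarith)]
        simp only [zero_div, neg_zero]
        apply div_nonneg (by linarith) (by linarith)
      · rw [max_eq_left (by linarith)]
        rw [le_div_iff₀ (by linarith)]
        nlinarith
    have := hN x hxN
    rw [hid x hx0]
    linarith
  have hB : ∀ x, max (2 * X0) N ≤ x → max (2 - r x) 0 ≤ 1 := by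
    intro x hx
    have hx0 : 2 * X0 ≤ x := le_trans (le_max_left _ _) hx
    have h1 : 1 ≤ r x := hr1 _ (by linarith)
    apply max_le _ (by norm_num)
    linarith
  have hstep : ∀ x, 2 * max (2 * X0) N ≤ x →
      max (2 - r x) 0 ≤ 0 + max (2 - r (x / 2)) 0 / 2 := by
    intro x hx
    have hx' : max (2 * X0) N ≤ x := by linarith
    have h0 : 0 ≤ max (2 - r (x / 2)) 0 := le_max_right _ _
    have := hkey x hx'
    apply max_le <;> linarith
  have hfin := decay_eventually (fun x => max (2 - r x) 0) _ 1 0 hY le_rfl hB hstep hη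
  have hhalf : Tendsto (fun x : ℝ => x / 2) atTop atTop :=
    tendsto_id.atTop_div_const (by norm_num)
  filter_upwards [hhalf.eventually hfin, eventually_ge_atTop (max (2 * X0) N)] with x hx hx2
  have := hkey x hx2
  linarith

end Vale.Agent.Lib.P031
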