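import Mathlib

open Filter Topology

namespace Vale.Agent.Lib.P031

theorem irrational_log_two_div_log_three : Irrational (Real.log 2 / Real.log 3) := by
  have h2 : 0 < Real.log 2 := Real.log_pos (by norm_num)
  have h3 : 0 < Real.log 3 := Real.log_pos (by norm_num)
  rintro ⟨q, hq⟩
  have hqpos : (0 : ℝ) < q := by rw [hq]; positivity
  have hq0 : 0 < q := by exact_mod_cast hqpos
  have hnum : 0 < q.num := Rat.num_pos.mpr hq0
  obtain ⟨A, hA⟩ := Int.eq_ofNat_of_zero_le hnum.le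
  have hden : (0 : ℝ) < q.den := by exact_mod_cast q.den_pos
  have h4 : (q : ℝ) = (A : ℝ) / q.den := by
    have h5 : (q : ℝ) = (q.num : ℝ) / q.den := by exact_mod_cast (Rat.num_div_den q).symm
    rw [h5, hA]
    simp
  rw [h4, div_eq_div_iff hden.ne' h3.ne'] at hq
  have h6 : Real.log ((3 : ℝ) ^ A) = Real.log ((2 : ℝ) ^ q.den) := by
    rw [Real.log_pow, Real.log_pow]
    linarith
  have h7 : (3 : ℝ) ^ A = (2 : ℝ) ^ q.den :=
    Real.log_injOn_pos (by simp) (by simp) h6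
  have h8 : 3 ^ A = 2 ^ q.den := by exact_mod_cast h7
  have h9 : Odd (3 ^ A) := Odd.pow (by decide)
  have h10 : Even (2 ^ q.den) := (Nat.even_pow.mpr ⟨by decide, q.den_pos.ne'⟩)
  rw [h8] at h9
  exact (Nat.not_even_iff_odd.mpr h9) h10

/-- The numbers `2 ^ a * 3 ^ b`, `a b : ℤ`, are dense in the positive reals. -/
theorem exists_two_three_between {u v : ℝ} (hu : 0 < u) (huv : u < v) :
    ∃ a b : ℤ, u < (2 : ℝ) ^ a * (3 : ℝ) ^ b ∧ (2 : ℝ) ^ a * (3 : ℝ) ^ b < v := by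
  have hd : Dense (AddSubgroup.closure {Real.log 2, Real.log 3} : Set ℝ) :=
    dense_addSubgroupClosure_pair_iff.mpr irrational_log_two_div_log_three
  have hlog : Real.log u < Real.log v := Real.log_lt_log hu huv
  obtain ⟨g, hg, h1, h2⟩ := hd.exists_between hlog
  obtain ⟨a, b, hab⟩ := AddSubgroup.mem_closure_pair.mp hg
  refine ⟨a, b, ?_⟩
  have hpos : (0 : ℝ) < (2 : ℝ) ^ a * (3 : ℝ) ^ b := by positivity
  have hl : Real.log ((2 : ℝ) ^ a * (3 : ℝ) ^ b) = g := by
    rw [Real.log_mul (by positivity) (by positivity), Real.log_zpow, Real.log_zpow, ← hab]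
    simp
  constructor
  · rw [← Real.log_lt_log_iff hu hpos, hl]; exact h1
  · rw [← Real.log_lt_log_iff hpos (hu.trans huv), hl]; exact h2

/-- `c` is a ratio with the right limit. -/
def RV (f : ℝ → ℝ) (c : ℝ) : Prop :=
  0 < c ∧ Tendsto (fun x => f (c * x) / f x) atTop (𝓝 c)

theorem RV.one {f : ℝ → ℝ} (hpos : ∀ᶠ x in atTop, 0 < f x) : RV f 1 := by
  refine ⟨one_pos, ?_⟩
  apply Tendsto.congr' _ tendsto_const_nhds
  filter_upwards [hpos] with x hx
  rw [one_mul, div_self hx.ne']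

theorem RV.mul {f : ℝ → ℝ} (hpos : ∀ᶠ x in atTop, 0 < f x) {c c' : ℝ} (h : RV f c)
    (h' : RV f c') : RV f (c * c') := by
  refine ⟨mul_pos h.1 h'.1, ?_⟩
  have ht : Tendsto (fun x : ℝ => c' * x) atTop atTop := tendsto_id.const_mul_atTop h'.1
  have h1 : Tendsto (fun x => f (c * (c' * x)) / f (c' * x)) atTop (𝓝 c) := h.2.comp ht
  have h2 := h1.mul h'.2
  apply Tendsto.congr' _ h2
  filter_upwards [ht.eventually hpos] with x hx
  rw [mul_assoc, div_mul_div_cancel₀ hx.ne']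

theorem RV.inv {f : ℝ → ℝ} {c : ℝ} (h : RV f c) : RV f c⁻¹ := by
  refine ⟨inv_pos.mpr h.1, ?_⟩
  have ht : Tendsto (fun x : ℝ => c⁻¹ * x) atTop atTop :=
    tendsto_id.const_mul_atTop (inv_pos.mpr h.1)
  have h1 : Tendsto (fun x => f (c * (c⁻¹ * x)) / f (c⁻¹ * x)) atTop (𝓝 c) := h.2.comp ht
  have h2 := h1.inv₀ h.1.ne'
  apply Tendsto.congr _ h2
  intro x
  rw [inv_div, ← mul_assoc, mul_inv_cancel₀ h.1.ne', one_mul]

theorem RV.pow {f : ℝ → ℝ} (hpos : ∀ᶠ x in atTop, 0 < f x) {c : ℝ} (h : RV f c) (n : ℕ) :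
    RV f (c ^ n) := by
  induction n with
  | zero => simpa using RV.one hpos
  | succ n ih => rw [pow_succ]; exact RV.mul hpos ih h

theorem RV.zpow {f : ℝ → ℝ} (hpos : ∀ᶠ x in atTop, 0 < f x) {c : ℝ} (h : RV f c) (a : ℤ) :
    RV f (c ^ a) := by
  cases a with
  | ofNat n => simpa using RV.pow hpos h n
  | negSucc n => rw [zpow_negSucc]; exact (RV.pow hpos h (n + 1)).inv

/-- The set of ratios with the right limit is a multiplicative group. -/
theorem ratio_zpow (f : ℝ → ℝ) (hpos : ∀ᶠ x in atTop, 0 < f x)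
    (h2 : Tendsto (fun x => f (2 * x) / f x) atTop (𝓝 2))
    (h3 : Tendsto (fun x => f (3 * x) / f x) atTop (𝓝 3)) (a b : ℤ) :
    Tendsto (fun x => f ((2 : ℝ) ^ a * (3 : ℝ) ^ b * x) / f x) atTop
      (𝓝 ((2 : ℝ) ^ a * (3 : ℝ) ^ b)) :=
  (RV.mul hpos (RV.zpow hpos ⟨by norm_num, h2⟩ a) (RV.zpow hpos ⟨by norm_num, h3⟩ b)).2

/-- A monotone function with the right limits for the ratios `2` and `3` has them for all ratios. -/
theorem regvar_of_two_three (f : ℝ → ℝ) (hf : Monotone f) (hpos : ∀ᶠ x in atTop, 0 < f x)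
    (h2 : Tendsto (fun x => f (2 * x) / f x) atTop (𝓝 2))
    (h3 : Tendsto (fun x => f (3 * x) / f x) atTop (𝓝 3)) (c : ℝ) (hc : 0 < c) :
    Tendsto (fun x => f (c * x) / f x) atTop (𝓝 c) := by
  rw [tendsto_order]
  constructor
  · intro p hp
    have h1 : max p (c / 2) < c := max_lt hp (by linarith)
    have h0 : 0 < max p (c / 2) := lt_max_of_lt_right (by linarith)
    obtain ⟨a, b, hu1, hu2⟩ := exists_two_three_between h0 h1
    have ht := ratio_zpow f hpos h2 h3 a b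
    have hpu : p < (2 : ℝ) ^ a * (3 : ℝ) ^ b := lt_of_le_of_lt (le_max_left _ _) hu1
    filter_upwards [ht.eventually (lt_mem_nhds hpu), hpos, eventually_gt_atTop (0 : ℝ)]
      with x hx hfx hx0
    refine lt_of_lt_of_le hx ?_
    apply div_le_div_of_nonneg_right _ hfx.le
    exact hf (mul_le_mul_of_nonneg_right hu2.le hx0.le)
  · intro p hp
    obtain ⟨a, b, hu1, hu2⟩ := exists_two_three_between hc hp
    have ht := ratio_zpow f hpos h2 h3 a b
    filter_upwards [ht.eventually (gt_mem_nhds hu2), hpos, eventually_gt_atTop (0 : ℝ)]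
      with x hx hfx hx0
    refine lt_of_le_of_lt ?_ hx
    apply div_le_div_of_nonneg_right _ hfx.le
    exact hf (mul_le_mul_of_nonneg_right hu1.le hx0.le)

end Vale.Agent.Lib.P031
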