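import Vale.Agent.Lib.P031.Identity
import Vale.Agent.Lib.P031.Ratio
import Vale.Agent.Lib.P031.Growth
import Vale.Agent.Lib.P031.RegVar

open Filter Topology

namespace Vale.Agent.Lib.P031

/-- The ratio `V (2 x) / V x`. -/
noncomputable def rr (x : ℝ) : ℝ := (V (2 * x) : ℝ) / (V x : ℝ)

/-- The ratio `Nn x / V x`. -/
noncomputable def nu (x : ℝ) : ℝ := (Nn x : ℝ) / (V x : ℝ)

theorem V_pos {x : ℝ} (hx : 1 ≤ x) : (0 : ℝ) < (V x : ℝ) := by
  have := one_le_V hx
  exact_mod_cast this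

theorem rr_ge_one {x : ℝ} (hx : 1 ≤ x) : 1 ≤ rr x := by
  unfold rr
  rw [le_div_iff₀ (V_pos hx), one_mul]
  have : V x ≤ V (2 * x) := V_mono (by linarith)
  exact_mod_cast this

theorem rr_rec {x : ℝ} (hx : 2 * 1 ≤ x) : rr x = 2 + nu x - 1 / rr (x / 2) := by
  have hx1 : (1 : ℝ) ≤ x := by linarith
  have hx2 : (1 : ℝ) ≤ x / 2 := by linarith
  have h := second_difference hx1
  have hR : (V (2 * x) : ℝ) + (V (x / 2) : ℝ) = 2 * (V x : ℝ) + (Nn x : ℝ) := by
    exact_mod_cast h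
  have hp := V_pos hx1
  have hp2 := V_pos hx2
  unfold rr nu
  have e : 2 * (x / 2) = x := by ring
  rw [e]
  field_simp
  linarith

theorem erdosHall_two_iff :
    ErdosHall 2 ↔ Tendsto (fun x : ℝ => (Nn x : ℝ) / (V x : ℝ)) atTop (𝓝 (1 / 2)) := by
  constructor
  · intro h
    exact tendsto_half_of_rec rr nu 1 (fun x hx => rr_rec hx) h
  · intro h
    exact tendsto_two_of_rec rr nu 1 one_pos (fun x hx => rr_ge_one hx) (fun x hx => rr_rec hx) h

theorem frequently_nu_gt {η : ℝ} (hη : 0 < η) :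
    ∃ᶠ x in atTop, 1 / 2 - η < (Nn x : ℝ) / (V x : ℝ) := by
  intro hcon
  have h1 : ∀ᶠ x in atTop, nu x ≤ 1 / 2 - η := by
    filter_upwards [hcon] with x hx
    exact not_lt.mp hx
  have h2 := eventually_le_of_rec rr nu 1 one_pos (fun x hx => rr_ge_one hx)
    (fun x hx => rr_rec hx) hη h1
  refine not_eventually_ratio_le (c := 2) (L := 2 - η / 2) (by norm_num) (by linarith) ?_
  filter_upwards [h2, eventually_ge_atTop 1] with x hx hx1
  unfold rr at hx
  rwa [div_le_iff₀ (V_pos hx1)] at hx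

theorem frequently_nu_lt {η : ℝ} (hη : 0 < η) :
    ∃ᶠ x in atTop, (Nn x : ℝ) / (V x : ℝ) < 1 / 2 + η := by
  intro hcon
  have h1 : ∀ᶠ x in atTop, 1 / 2 + η ≤ nu x := by
    filter_upwards [hcon] with x hx
    exact not_lt.mp hx
  have h2 := eventually_ge_of_rec rr nu 1 one_pos (fun x hx => rr_ge_one hx)
    (fun x hx => rr_rec hx) hη h1
  refine not_eventually_ratio_ge (c := 2) (L := 2 + η / 2) (by norm_num) (by linarith) ?_
  filter_upwards [h2, eventually_ge_atTop 1] with x hx hx1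
  unfold rr at hx
  rwa [le_div_iff₀ (V_pos hx1)] at hx

theorem limit_eq {c L : ℝ} (hc : 1 < c)
    (h : Tendsto (fun x : ℝ => (V (c * x) : ℝ) / (V x : ℝ)) atTop (𝓝 L)) : L = c := by
  rcases lt_trichotomy L c with hlt | heq | hgt
  · exfalso
    refine not_eventually_ratio_le (c := c) (L := (L + c) / 2) hc (by linarith) ?_
    have h1 : ∀ᶠ x in atTop, (V (c * x) : ℝ) / (V x : ℝ) < (L + c) / 2 :=
      h.eventually (gt_mem_nhds (by linarith))
    filter_upwards [h1, eventually_ge_atTop 1] with x hx hx1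
    exact ((div_lt_iff₀ (V_pos hx1)).mp hx).le
  · exact heq
  · exfalso
    refine not_eventually_ratio_ge (c := c) (L := (L + c) / 2) hc (by linarith) ?_
    have h1 : ∀ᶠ x in atTop, (L + c) / 2 < (V (c * x) : ℝ) / (V x : ℝ) :=
      h.eventually (lt_mem_nhds (by linarith))
    filter_upwards [h1, eventually_ge_atTop 1] with x hx hx1
    exact ((lt_div_iff₀ (V_pos hx1)).mp hx).le

theorem erdosHall_all_iff : (ErdosHall 2 ∧ ErdosHall 3) ↔ ∀ c : ℝ, 1 < c → ErdosHall c := by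
  constructor
  · rintro ⟨h2, h3⟩ c hc
    refine regvar_of_two_three (fun x => (V x : ℝ)) ?_ ?_ h2 h3 c (by linarith)
    · intro a b hab
      have := V_mono hab
      show (V a : ℝ) ≤ (V b : ℝ)
      exact_mod_cast this
    · filter_upwards [eventually_ge_atTop 1] with x hx
      exact V_pos hx
  · intro h
    exact ⟨h 2 (by norm_num), h 3 (by norm_num)⟩

end Vale.Agent.Lib.P031
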